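import Crest.Agent.N255.Cs.OnO
import Crest.Agent.N255.Ku.CoS
import Crest.Agent.N255.Sl.One
import Crest.Agent.N255.Tg.Ab

/-!
# Row 255 (helper22): the wall facts `W0`, `W1`, `W2` of a normalised wall family
-/

set_option autoImplicit false
set_option linter.unusedSectionVars false
open Set

noncomputable section

namespace Crest.Agent.N255.Wf

open Cs Cs.Tw Tp Ku Tg Sl _root_.N255.Dr _root_.N255.Dr.O

section der

variable {X : Type} [TopologicalSpace X] {K : Type} [CommRing K] {p : ℕ} [Fact p.Prime]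
  {O : Type} [CommRing O] [Algebra K O] {G : Gr (Gm p) K O} {m I : Ideal O}
  [Fact ((p : O) = 0)] {γ : Gm p} {δ : Derivation K O O} {P : Sb X} {g : Cn G X} (T : To K X)
  {a b : (Tw G)ˣ} {σ : Ch K 3 X}

omit [Fact ((p : O) = 0)] in
theorem der_g (hδ : G.Dg γ δ) (z : δ (o G a) = 0) (z' : δ (o G b) = 0) (e : Sx 1 X) :
    δ (o G (T.g a b e)) = 0 := by
  have h : mp (hom_jet hδ) (T.g a b) e = mp (hom_inl G γ) (T.g a b) e := by
    rw [T.g_mp, T.g_mp, um_jet hδ z, um_jet hδ z']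
  exact congrArg (fun u : (Tw (G.dual γ))ˣ => (o _ u.val).snd) h

omit [Fact ((p : O) = 0)] in
theorem der_cap (hδ : G.Dg γ δ) (z : δ (o G a) = 0) (z' : δ (o G b) = 0) :
    δ (T.cap a ((b : Tw G) - 1)) = 0 := by
  have h : jet δ (T.cap a ((b : Tw G) - 1)) = TrivSqZeroExt.inlAlgHom K O O (T.cap a (b.val - 1)) := by
    rw [← T.cap_mp (hom_jet hδ), ← T.cap_mp (hom_inl G γ), map_sub, map_sub, map_one, map_one,
      ← val_um, ← val_um, um_jet hδ z, um_jet hδ z']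
  exact congrArg TrivSqZeroExt.snd h

/-- the derivative in a direction which fixes both boundary data -/
theorem W_der_xx (hδ : G.Dg γ δ) {hm : G.Id m} (hI : G.Id I) (h : CU P hm g) (f : CI P I (cur g))
    {κ : Co K 1 X} (hκ : κ ∈ P.Z K K 1)
    (k : ∀ σ ∈ P.S 1, δ (o G (g σ)) - algebraMap K O (κ σ) ∈ m) (hσ : σ ∈ P.ch K 3)
    (hb : bd K σ = T.t) (e : T.Bc g a b) (z : δ (o G a) = 0) (z' : δ (o G b) = 0) :
    δ (T.W σ g a b) - sg γ (g0 p - γ) • G.pr (g0 p - γ)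
      (o G (Tp.ev K (cup (LinearMap.lsmul K (Tw G)) 3 κ (cur g)) σ)) ∈ m * I := by
  have h1 := CS_der hδ hI h f hκ k hσ
  rw [hb, BD_zero hδ (fun τ hτ => by rw [e τ hτ]; exact der_g T hδ z z' τ) T.ht, add_zero] at h1
  rwa [To.W, map_add, der_cap T hδ z z', add_zero]

end der

variable {p : ℕ} [Fact p.Prime] {K : Type} [Field K] [Fact ((p : K) = 0)] {s : Type} [Fintype s]

instance : Fact (((p : ℕ) : O p K s) = 0) := ⟨p_zero⟩

/-- the ideal of the boundary variables -/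
def Ny (p : ℕ) (K : Type) [CommRing K] (Y : s → Prop) : Ideal (O p K s) :=
  Ideal.span (z '' {y | Y y})

omit [Fact p.Prime] [Fact ((p : K) = 0)] [Fintype s] in
theorem Ny_le {Y : s → Prop} {J : Ideal (O p K s)} : Ny p K Y ≤ J ↔ ∀ y, Y y → z y ∈ J :=
  Ideal.span_le.trans forall_mem_image

omit [Fact p.Prime] [Fact ((p : K) = 0)] [Fintype s] in
theorem Ny_mx {Y : s → Prop} : Ny p K Y ≤ mx := Ny_le.2 fun y _ => z_mem y

theorem lin_Ny {Y : s → Prop} {x : O p K s} (h0 : x ∈ mx) (h : ∀ u, ¬ Y u → pd u x ∈ mx) :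
    x ∈ mx * mx ⊔ Ny p K Y := by
  have := tay2 (I := fun _ => mx) (ψ := (Algebra.ofId K (O p K s)).comp aug) (ψ' := AlgHom.id K _)
    (fun i => by simp) z_mem x (E := mx * mx) fun u v => Ideal.mul_le_left.trans (Ideal.mul_mono
      ((Ideal.span_singleton_le_iff_mem _).2 (by simpa using z_mem u))
      ((Ideal.span_singleton_le_iff_mem _).2 (by simpa using z_mem v)))
  simp only [AlgHom.coe_id, id, AlgHom.comp_apply, aug_z, mem_mx.1 h0, map_zero, sub_zero] at this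
  rw [← sub_add_cancel x (∑ u, z u * Algebra.ofId K (O p K s) (aug (pd u x)))]
  refine add_mem (Ideal.mem_sup_left this) (Ideal.mem_sup_right (sum_mem fun u _ => ?_))
  by_cases hu : Y u
  · exact Ideal.mul_mem_right _ _ (Ny_le.1 le_rfl u hu)
  · simp [mem_mx.1 (h u hu)]

theorem pd_Ny {Y : s → Prop} {x : O p K s} (h : x ∈ mx * mx ⊔ Ny p K Y) {u : s} (hu : ¬ Y u) :
    pd u x ∈ mx := by
  obtain ⟨a, ha, b, hb, rfl⟩ := Submodule.mem_sup.1 h
  rw [map_add]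
  refine add_mem (by simpa using der_mem_pow (pd u) 1 (by simpa [sq] using ha)) ?_
  suffices b ∈ mx ∧ pd u b ∈ mx from this.2
  clear h
  induction hb using Submodule.span_induction with
  | mem x hx =>
    obtain ⟨y, hy, rfl⟩ := hx
    exact ⟨z_mem y, by rw [pd_z_ne (by rintro rfl; exact hu hy)]; exact zero_mem _⟩
  | zero => simp
  | add x y _ _ h1 h2 => exact ⟨add_mem h1.1 h2.1, by rw [map_add]; exact add_mem h1.2 h2.2⟩
  | smul c x _ h1 => exact ⟨Ideal.mul_mem_left _ _ h1.1, by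
      rw [smul_eq_mul, Derivation.leibniz]
      exact add_mem (Ideal.mul_mem_left _ _ h1.2) (Ideal.mul_mem_right _ _ h1.1)⟩

open Classical in
/-- coefficients of the multiplicative directions -/
def YU (p : ℕ) (K : Type) [CommRing K] (Y : s → Prop) (u : s) : Ideal (O p K s) :=
  if Y u then Ny p K Y else ⊥

open Classical in
/-- coefficients of all directions -/
def YT (p : ℕ) (K : Type) [CommRing K] (Y : s → Prop) (u : s) : Ideal (O p K s) :=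
  if Y u then Ny p K Y else ⊤

/-- the ideal `(∂_l W, l ∉ Y) + (y) (∂_y W)` -/
def Lw (Y : s → Prop) (W : O p K s) : Ideal (O p K s) :=
  ⨆ x, YT p K Y x * Ideal.span {pd x W}

theorem le_Lw (Y : s → Prop) (W : O p K s) (x : s) : YT p K Y x * Ideal.span {pd x W} ≤ Lw Y W :=
  le_iSup (fun x => YT p K Y x * Ideal.span {pd x W}) x

theorem pd_Lw {Y : s → Prop} (W : O p K s) {x : s} (hx : ¬ Y x) : pd x W ∈ Lw Y W :=
  le_Lw Y W x (by rw [YT, if_neg hx, Ideal.top_mul]; exact Ideal.mem_span_singleton_self _)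

theorem Ny_Lw {Y : s → Prop} (W : O p K s) {x : s} (hx : Y x) :
    Ny p K Y * Ideal.span {pd x W} ≤ Lw Y W := by
  have := le_Lw Y W x
  rwa [YT, if_pos hx] at this

variable {G : Gr (Gm p) K (O p K s)} {d : s → Gm p}

omit [Fact ((p : K) = 0)] [Fintype s] in
theorem id_Ny (hO : ∀ i, G.Hg (d i) (z i)) (Y : s → Prop) : G.Id (Ny p K Y) :=
  G.id_span_hg (by rintro _ ⟨y, -, rfl⟩; exact ⟨_, hO y⟩)

omit [Fact ((p : K) = 0)] in
theorem id_Ge (hO : ∀ i, G.Hg (d i) (z i)) (F : s → ℕ) (n : ℤ) : G.Id (Ge p K F n) :=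
  G.id_span_hg (by rintro _ ⟨a, -, rfl⟩; exact ⟨_, hg_zm (AlgHom.id K _) hO a⟩)

theorem id_Lw (hO : ∀ i, G.Hg (d i) (z i)) (Y : s → Prop) {D : Gm p} {W : O p K s}
    (hW : G.Hg D W) : G.Id (Lw Y W) :=
  Gr.Id.iSup fun x => Gr.Id.mul (by unfold YT; split_ifs; exacts [id_Ny hO Y, G.id_top])
    (G.id_span_hg (by rintro _ rfl; exact ⟨_, hg_pd hO hW x⟩))

/-- the commutator ideal -/
def cc (a b : (Tw G)ˣ) : Ideal (O p K s) := G.sp {o G (a.val * b.val - b.val * a.val)}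

variable {X : Type} [TopologicalSpace X]

/-- the pairing of a cocycle with a scalar 2-cochain on the wall -/
abbrev pr (κ : Co K 1 X) (u : Co K 2 X) (σ : Ch K 3 X) : K :=
  Tp.ev K (cup (LinearMap.lsmul K K) 3 κ u) σ

omit [Fact ((p : K) = 0)] [Fintype s] in
theorem pr_lc (l : Module.Dual K (Tw G)) (κ : Co K 1 X) (f : Co (Tw G) 2 X) (σ : Ch K 3 X) :
    pr κ (lc l f) σ = l (Tp.ev K (cup (LinearMap.lsmul K (Tw G)) 3 κ f) σ) := by
  rw [← ev_lc]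
  refine congrArg (fun φ => Tp.ev K φ σ) (funext fun τ => ?_)
  exact (l.map_smul _ _).symm

/-- A normalised wall family: `f` = curvature without the sources, `Z k` = windows, `P` = a
neighbourhood of the wall `σ`, `Nr` = normalised scalar cochains that vanish far out. -/
structure WF (hO : ∀ i, G.Hg (d i) (z i)) (T : To K X) (σ : Ch K 3 X) (g : Cn G X)
    (a b : (Tw G)ˣ) (Y : s → Prop) (κ : s → Co K 1 X) (f : Co (Tw G) 2 X) (Z : ℕ → Sb X)
    (P : Sb X) (n : ℕ) (Nr : Set (Co K 2 X)) (F : s → ℕ) (wk : ℕ → ℕ) (N0 : ℕ) : Prop where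
  s_ne : T.s ≠ 0
  hσ : σ ∈ P.ch K 3
  hb : bd K σ = T.t
  le : ∀ k ≤ n + 1, P.Le (Z k)
  hg : ∀ e, g e ∈ U (id_mx hO)
  bc : T.Bc g a b
  ha : a ∈ U (id_Ny hO Y)
  hb' : b ∈ U (id_mx hO)
  pa : ∀ u, ¬ Y u → pd u (o G a) = 0
  py : ∀ γ, ∃ y, Y y ∧ d y = γ ∧ pd y (o G a) - 1 ∈ mx
  cl : ∀ u, ¬ Y u → κ u ∈ P.Z K K 1
  lin : ∀ u, ¬ Y u → ∀ e ∈ P.S 1, pd u (o G (g e)) - algebraMap K _ (κ u e) ∈ mx
  full : ∀ u, ¬ Y u → ∀ γ, ∃ u', ¬ Y u' ∧ κ u' = κ u ∧ d u' = γ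
  src : ∀ k ≤ n, CI (Z k) (Ge p K F (wk k)) (cur g - f)
  scl : ∀ k ≤ n, cur g - f ∈ (Z k).Z K (Tw G) 2
  sP : cur g - f ∈ P.van K (Tw G) 2
  nr : ∀ l, Kl l (cc a b) → lc l f ∈ Nr
  det : ∀ k ≤ n, ∀ u ∈ Nr, u ∈ (Z k).Z K K 2 → (∀ x, ¬ Y x → pr (κ x) u σ = 0) →
    u ∈ (Z (k + 1)).van K K 2
  die : ∀ x, ¬ Y x → (F x < 2 * N0 ∧ ∀ y, Y y → F x < F y) ∨ (pd x (o G b) = 0 ∧
    ∃ k ≤ n, F x < N0 + wk k ∧ ∀ u ∈ Nr, u ∈ (Z k).Z K K 2 → pr (κ x) u σ = 0)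
  hF : ∀ u, N0 ≤ F u
  w0 : wk 0 ≤ N0
  ws : ∀ k < n, wk (k + 1) ≤ N0 + wk k
  wm : ∀ k ≤ n, wk k ≤ wk n

namespace WF

variable {hO : ∀ i, G.Hg (d i) (z i)} {T : To K X} {σ : Ch K 3 X} {g : Cn G X} {a b : (Tw G)ˣ}
  {Y : s → Prop} {κ : s → Co K 1 X} {f : Co (Tw G) 2 X} {Z : ℕ → Sb X} {P : Sb X} {n : ℕ}
  {Nr : Set (Co K 2 X)} {F : s → ℕ} {wk : ℕ → ℕ} {N0 : ℕ}
  (h : WF hO T σ g a b Y κ f Z P n Nr F wk N0)

include h

theorem mx_le : (mx : Ideal (O p K s)) ≤ Ge p K F N0 :=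
  Ideal.span_le.2 (by
    rintro _ ⟨i, rfl⟩
    exact (flt_Ge F).anti (by exact_mod_cast h.hF i) (z_mem_Ge F i))

theorem mx_Ge {k l : ℕ} (hk : k ≤ N0 + l) : mx * Ge p K F l ≤ Ge p K F k :=
  (flt_Ge F).mul_le h.mx_le le_rfl (by exact_mod_cast hk)

theorem cu (Q : Sb X) : CU Q (id_mx hO) g := fun e _ => h.hg e

/-- the commutator is small -/
theorem cc_le {I : Ideal (O p K s)} (hI : G.Id I) (c : CI P I (cur g)) : cc a b ≤ mx * I := by
  refine nak mx_nil ((((id_mx hO).mul hI).sup ((id_mx hO).mul (G.id_sp _))).sp_le.2 ?_)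
  rintro _ rfl
  have h1 : In (mx * cc a b) _ := T.ev_cur_g (id_mx hO) (G.id_sp _)
    (U_mono _ _ Ny_mx h.ha) h.hb' (Gr.mem_sp rfl)
  have h2 := (cob_cur_mem hI (h.cu P) c).ev h.hσ
  rw [← Tp.ev_bd, h.hb, T.P.ev_congr (ψ := cur (T.g a b))
    (fun τ hτ => sub_eq_zero.2 (cur_congr h.bc hτ)) T.ht] at h2
  have h3 := in_smul T.s⁻¹ (In.sub (h2.mono (le_sup_left (b := mx * cc a b))) (h1.mono le_sup_right))
  rwa [sub_sub_cancel, smul_smul, inv_mul_cancel₀ h.s_ne, one_smul] at h3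

/-- the periods -/
def E (_ : WF hO T σ g a b Y κ f Z P n Nr F wk N0) (x : s) : Tw G :=
  Tp.ev K (cup (LinearMap.lsmul K (Tw G)) 3 (κ x) (cur g)) σ

/-- the ideal of the periods -/
def JE : Ideal (O p K s) := G.sp ((fun x => o G (h.E x)) '' {x | ¬ Y x})

theorem pr_f (l : Module.Dual K (Tw G)) (x : s) : pr (κ x) (lc l f) σ = l (h.E x) := by
  rw [pr_lc, E]
  refine congrArg l (P.ev_congr (fun τ hτ => ?_) h.hσ)
  have := h.sP _ (e3_mem P hτ (a := 1) (b := 2) (c := 3) (by decide) (by decide))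
  rw [Pi.sub_apply, sub_eq_zero] at this
  rw [Pi.sub_apply, cup12, cup12, this, sub_self]

theorem lc_Z {I : Ideal (O p K s)} (hI : G.Id I) {k : ℕ} (hk : k ≤ n) (c : CI (Z k) I (cur g))
    {l : Module.Dual K (Tw G)} (hl : Kl l (mx * I)) : lc l f ∈ Nr ∧ lc l f ∈ (Z k).Z K K 2 := by
  refine ⟨h.nr l (hl.mono (h.cc_le hI fun τ hτ => c τ (h.le k (by omega) _ hτ))), fun τ hτ => ?_⟩
  have h1 := lc_cur_Z hI (h.cu _) c hl τ hτ
  have h2 := h.scl k hk τ hτ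
  rw [map_sub, Pi.sub_apply, sub_eq_zero] at h2
  rw [cob_lc] at h1 ⊢
  exact (congrArg l h2).symm.trans h1

theorem step {I : Ideal (O p K s)} (hI : G.Id I) {k : ℕ} (hk : k ≤ n) (c : CI (Z k) I (cur g)) :
    CI (Z (k + 1)) (h.JE ⊔ mx * I) f := ci_iff.2 fun l hl => by
  have := h.lc_Z hI hk c (hl.mono le_sup_right)
  exact h.det k hk _ this.1 this.2 fun x hx => by
    rw [h.pr_f]; exact hl _ (Ideal.mem_sup_left (Gr.mem_sp ⟨x, hx, rfl⟩))

theorem id_J (k : ℤ) : G.Id (h.JE ⊔ Ge p K F k) := (G.id_sp _).sup (id_Ge hO F k)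

theorem step' {k : ℕ} (hk : k ≤ n) (c : CI (Z k) (h.JE ⊔ Ge p K F (wk k)) (cur g)) :
    CI (Z (k + 1)) (h.JE ⊔ mx * Ge p K F (wk k)) f := fun τ hτ =>
  (h.step (h.id_J _) hk c τ hτ).mono (sup_le le_sup_left (by
    rw [Ideal.mul_sup]; exact sup_le_sup_right Ideal.mul_le_right _))

theorem cur_le {k : ℕ} (hk : k ≤ n) : CI (Z k) (h.JE ⊔ Ge p K F (wk k)) (cur g) := by
  induction k with
  | zero =>
    exact fun τ _ => In.mono ((sD X).F_in (id_mx hO) h.hg τ) (le_sup_of_le_right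
      (h.mx_le.trans ((flt_Ge F).anti (by exact_mod_cast h.w0))))
  | succ k ih =>
    intro τ hτ
    have := ((h.step' (by omega) (ih (by omega)) τ hτ).mono
      (sup_le_sup_left (h.mx_Ge (h.ws k hk)) _)).add ((h.src _ hk τ hτ).mono le_sup_right)
    rwa [Pi.sub_apply, add_sub_cancel] at this

theorem cur_P : CI P (h.JE ⊔ mx * Ge p K F (wk n)) (cur g) := fun τ hτ => by
  have := h.sP τ hτ
  rw [Pi.sub_apply, sub_eq_zero] at this
  rw [this]
  exact h.step' le_rfl (h.cur_le le_rfl) τ (h.le _ le_rfl _ hτ)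

/-- the linear part of the curvature near the wall -/
theorem cur_lin : CI P (mx * mx ⊔ Ny p K Y) (cur g) := fun τ hτ => by
  refine lin_Ny ((sD X).F_in (id_mx hO) h.hg τ) fun u hu => ?_
  have h1 : pd u (o G (cur g τ - cob K (Cs.dif g 1) τ)) ∈ mx := by
    have := (sD X).F_lin (id_mx hO) h.hg τ
    rw [sD_d1 K] at this
    exact pow_one (mx : Ideal (O p K s)) ▸ der_mem_pow (pd u) 1 (sq (mx : Ideal (O p K s)) ▸ this)
  have h2 : pd u (o G (cob K (Cs.dif g 1) τ)) - algebraMap K _ (cob K (κ u) τ) ∈ mx := by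
    rw [cob_apply, cob_apply, map_sum, map_sum, map_sum, ← Finset.sum_sub_distrib]
    refine sum_mem fun i _ => ?_
    have := Submodule.smul_of_tower_mem _ ((-1 : K) ^ (i : ℕ)) (h.lin u hu _ (P.fc_mem _ τ i hτ))
    rw [map_smul, Derivation.map_smul, smul_eq_mul, map_mul, ← Algebra.smul_def, ← smul_sub]
    simpa only [Cs.dif, Pi.one_apply, Units.val_one, map_sub, o_one, Derivation.map_one_eq_zero,
      sub_zero] using this
  rw [h.cl u hu τ hτ, map_zero, sub_zero] at h2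
  simpa using add_mem h1 h2

theorem der {I : Ideal (O p K s)} (hI : G.Id I) (c : CI P I (cur g)) {x : s} (hx : ¬ Y x) :
    pd x (T.W σ g a b) - sg (d x) (g0 p - d x) • G.pr (g0 p - d x) (o G (h.E x)) ∈
      mx * I ⊔ Ny p K Y * G.sp {o G (b.val - 1)} :=
  T.W_der_x (dg_pd hO x) hI (id_Ny hO Y) (G.id_sp _) (h.cu P) c (h.cl x hx) (h.lin x hx) h.hσ h.hb
    h.bc h.ha (Gr.mem_sp rfl) (h.pa x hx)

theorem E_in {I : Ideal (O p K s)} (c : CI P I (cur g)) (x : s) : In I (h.E x) :=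
  CI.ev (P := P) (fun τ hτ => by
    rw [cup12]
    exact in_smul _ (c _ (e3_mem P hτ (by decide) (by decide)))) h.hσ

theorem Nb_mx : G.sp {o G (b.val - 1)} ≤ mx := (id_mx hO).sp_le.2 (by rintro _ rfl; exact h.hb')

/-- the first derivatives -/
theorem pd_lin {x : s} (hx : ¬ Y x) : pd x (T.W σ g a b) ∈ mx * mx ⊔ Ny p K Y := by
  have hM := ((id_mx hO).mul (id_mx hO)).sup (id_Ny hO Y)
  have e : mx * (mx * mx ⊔ Ny p K Y) ⊔ Ny p K Y * G.sp {o G (b.val - 1)} ≤ mx * mx ⊔ Ny p K Y :=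
    sup_le Ideal.mul_le_right (le_sup_of_le_right Ideal.mul_le_left)
  have := add_mem (e (h.der hM h.cur_lin hx)) (zsmul_mem (hM (g0 p - d x) _ (h.E_in h.cur_lin x))
      (sg (d x) (g0 p - d x)))
  rwa [sub_add_cancel] at this

/-- **(W0)** -/
theorem hess {x y : s} (hx : ¬ Y x) (hy : ¬ Y y) : pd x (pd y (T.W σ g a b)) ∈ mx :=
  pd_Ny (h.pd_lin hy) hx

theorem W_sq : T.W σ g a b ∈ mx ^ 2 := T.W_sq (h.cu P) h.hσ (U_mono _ _ Ny_mx h.ha) h.hb'

omit h in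
theorem of_sg {J : Ideal (O p K s)} {u v : Gm p} {x : O p K s} (hx : sg u v • x ∈ J) : x ∈ J := by
  have := zsmul_mem hx (sg u v)
  rwa [smul_smul, sg_sq, one_smul] at this

/-- the second boundary datum is detected by the boundary directions -/
theorem Nb_le {I : Ideal (O p K s)} (hI : G.Id I) (c : CI P I (cur g)) :
    Ny p K Y * G.sp {o G (b.val - 1)} ≤ Lw Y (T.W σ g a b) ⊔ mx * I := by
  have : G.sp {o G (b.val - 1)} ≤ (⨆ y, ⨆ _ : Y y, Ideal.span {pd y (T.W σ g a b)}) ⊔ I := by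
    refine nak mx_nil (Ideal.span_le.2 ?_)
    rintro _ ⟨γ, _, rfl, rfl⟩
    obtain ⟨y, hy, e, h1⟩ := h.py (g0 p - γ)
    have h2 := T.W_der_y (dg_pd hO y) hI (G.id_sp _) h.Nb_mx (h.cu P) c h.hσ h.hb h.bc
      (U_mono _ _ Ny_mx h.ha) (Gr.mem_sp rfl) (c := 1) (by rwa [map_one])
    rw [e, sub_sub_cancel, one_smul] at h2
    have h0 : pd y (T.W σ g a b) ∈ ⨆ y, ⨆ _ : Y y, Ideal.span {pd y (T.W σ g a b)} :=
      Ideal.mem_iSup_of_mem y (Ideal.mem_iSup_of_mem hy (Ideal.mem_span_singleton_self _))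
    have h3 := sub_mem (Ideal.mem_sup_left (Ideal.mem_sup_left h0))
      (SetLike.le_def.1 (sup_le_sup_right le_sup_right _) h2)
    rw [sub_sub_cancel] at h3
    have h4 := Submodule.smul_of_tower_mem _ T.s⁻¹ h3
    rw [smul_smul, inv_mul_cancel₀ h.s_ne, one_smul] at h4
    exact of_sg h4
  refine (Ideal.mul_mono_right this).trans ?_
  simp only [Ideal.mul_sup, Ideal.mul_iSup]
  exact sup_le_sup (iSup₂_le fun y hy => Ny_Lw _ hy) (Ideal.mul_mono_left Ny_mx)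

theorem JE_le {I : Ideal (O p K s)} (hI : G.Id I) (c : CI P I (cur g)) :
    h.JE ≤ Lw Y (T.W σ g a b) ⊔ mx * I := Ideal.span_le.2 (by
  rintro _ ⟨γ, _, ⟨x, hx, rfl⟩, rfl⟩
  obtain ⟨u, hu, e, e'⟩ := h.full x hx (g0 p - γ)
  have h1 := sub_mem (Ideal.mem_sup_left (pd_Lw _ hu))
    ((sup_le le_sup_right (h.Nb_le hI c) : _ ≤ _) (h.der hI c hu))
  rw [sub_sub_cancel, e', sub_sub_cancel, E, e] at h1
  exact of_sg h1)

/-- **(W1)** -/
theorem w1 : CI P (Lw Y (T.W σ g a b) ⊔ mx * Ge p K F (wk n)) (cur g) := by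
  have c : CI P (vI (cur g) (P.S 2)) (cur g) := fun τ hτ => in_vI _ hτ
  have : vI (cur g) (P.S 2) ≤ Lw Y (T.W σ g a b) ⊔ mx * Ge p K F (wk n) := by
    refine nak mx_nil (((vI_le ((G.id_sp _).sup ((id_mx hO).mul (id_Ge hO F _)))).2 h.cur_P).trans ?_)
    rw [sup_right_comm]
    exact sup_le_sup_right (h.JE_le (id_vI _ _) c) _
  exact fun τ hτ => (c τ hτ).mono this

omit h in
theorem id_I (hO : ∀ i, G.Hg (d i) (z i)) : G.Id (Lw Y (T.W σ g a b) ⊔ mx * Ge p K F (wk n)) :=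
  (id_Lw hO Y (T.W_hg σ g a b)).sup ((id_mx hO).mul (id_Ge hO F _))

/-- **(W2)** -/
theorem w2 {x : s} (hx : ¬ Y x) :
    pd x (T.W σ g a b) ∈ mx * Lw Y (T.W σ g a b) ⊔ Ge p K F (F x + 1) := by
  rcases h.die x hx with ⟨h1, h2⟩ | ⟨h0, k, hk, h1, h2⟩
  · refine Ideal.mem_sup_right ((sup_le ?_ (Ny_le.2 fun y hy => ?_) : _ ≤ _) (h.pd_lin hx))
    · exact (flt_Ge F).mul_le h.mx_le h.mx_le (by omega)
    · exact (flt_Ge F).anti (by have := h2 y hy; omega) (z_mem_Ge F y)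
  have e1 : mx * (Lw Y (T.W σ g a b) ⊔ mx * Ge p K F (wk n)) ≤
      mx * Lw Y (T.W σ g a b) ⊔ Ge p K F (F x + 1) := by
    rw [Ideal.mul_sup]
    exact sup_le_sup_left (Ideal.mul_le_right.trans ((flt_Ge F).mul_le h.mx_le le_rfl
      (by have := h.wm k hk; omega))) _
  have e2 : In (mx * (h.JE ⊔ Ge p K F (wk k))) (h.E x) :=
    mem_of_dual (N := inS G (mx * (h.JE ⊔ Ge p K F (wk k)))) fun l hl => by
      have := h.lc_Z (h.id_J _) hk (h.cur_le hk) (l := l) fun y hy => hl y hy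
      exact (h.pr_f l x).symm.trans (h2 _ this.1 this.2)
  have e3 : mx * (h.JE ⊔ Ge p K F (wk k)) ≤ mx * Lw Y (T.W σ g a b) ⊔ Ge p K F (F x + 1) := by
    rw [Ideal.mul_sup]
    refine sup_le (le_trans (Ideal.mul_mono_right ((h.JE_le (id_I hO) h.w1).trans
      (sup_le le_sup_left Ideal.mul_le_right))) e1)
      (le_sup_of_le_right ((flt_Ge F).mul_le h.mx_le le_rfl (by omega)))
  have := add_mem (e1 (W_der_xx T (dg_pd hO x) (id_I hO) (h.cu P) h.w1 (h.cl x hx) (h.lin x hx) h.hσ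
    h.hb h.bc (h.pa x hx) h0)) (zsmul_mem (e3 (((id_mx hO).mul (h.id_J _)) (g0 p - d x) _ e2))
      (sg (d x) (g0 p - d x)))
  rwa [E, sub_add_cancel] at this

end WF

end Crest.Agent.N255.Wf

end
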