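import Crest.Agent.N255.Wf.W12
import Crest.Agent.N255.Sl.PB

/-!
# Row 255 (helper22): the wall and the wall facts in the form used by step B
-/

set_option autoImplicit false
set_option linter.unusedSectionVars false
open Set

noncomputable section

namespace Crest.Agent.N255.Wf

open Cs Cs.Tw Tp Ku Tg Sl _root_.N255.Dr _root_.N255.Dr.O
open _root_.N255.Core (Wall)

section gen

variable {p : ℕ} [Fact p.Prime] {K : Type} [Field K] [Fact ((p : K) = 0)] {s : Type} [Fintype s]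

theorem deg_of_cf {Γ : Type*} [AddCommGroup Γ] [Fintype Γ] [DecidableEq Γ] {G : Gr Γ K (O p K s)}
    {d : s → Γ} (hO : ∀ i, G.Hg (d i) (z i)) {D : Γ} {W : O p K s} (hW : G.Hg D W) (a : s → ℕ)
    (h : cf a W ≠ 0) : ∑ i, a i • d i = D := by
  classical
  by_contra hn
  have key : cf a ∘ₗ G.pr D = 0 := lin_ext fun b _ => by
    have h1 : G.Hg _ (zm b) := hg_zm (AlgHom.id K _) hO b
    rw [LinearMap.comp_apply, h1.pr]
    split_ifs with e
    · rw [cf_zm, if_neg (by rintro ⟨rfl, -⟩; exact hn e.symm)]; rfl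
    · simp
  have := LinearMap.congr_fun key W
  rw [LinearMap.comp_apply, show G.pr D W = W from hW] at this
  exact h this

theorem split_at [DecidableEq s] {a : s → ℕ} {x : s} (h : a x ≠ 0) :
    ∃ b : s → ℕ, a = b + Pi.single x 1 ∧ ∑ i, a i = ∑ i, b i + 1 ∧ ∀ i, b i ≤ a i := by
  have e : a = (a - Pi.single x 1) + Pi.single x 1 := funext fun i => by
    rcases eq_or_ne i x with rfl | hi
    · simp; omega
    · simp [hi]
  refine ⟨_, e, ?_, fun i => Nat.sub_le _ _⟩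
  conv_lhs => rw [e]
  simp [Finset.sum_add_distrib, Pi.single_apply]

/-- the quadratic part only contains the boundary variables as a factor -/
theorem quad_Ny {Y : s → Prop} {W : O p K s} (h2 : W ∈ mx ^ 2)
    (h : ∀ x, ¬ Y x → pd x W ∈ mx * mx ⊔ Ny p K Y) : W ∈ Ny p K Y * mx ⊔ mx ^ 3 := by
  classical
  refine mem_of_cf LinearMap.id (E := (Ny p K Y * mx ⊔ mx ^ 3).restrictScalars K) fun a ha => ?_
  change zm a ∈ Ny p K Y * mx ⊔ mx ^ 3
  have m1 : ∀ {F : s → ℕ}, (∀ i, 0 < F i) → (mx * mx : Ideal (O p K s)) ≤ Ge p K F 2 := fun hF =>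
    (flt_Ge _).mul_le (mx_le_Ge hF) (mx_le_Ge hF) (by norm_num)
  have a2 : 2 ≤ ∑ i, a i := by
    have := mem_Ge.1 (m1 (F := fun _ => 1) (by simp) (sq (mx : Ideal (O p K s)) ▸ h2)) a ha
    simp only [wt, mul_one] at this
    omega
  by_cases hy : ∃ y, Y y ∧ a y ≠ 0
  · obtain ⟨y, hy, h0⟩ := hy
    obtain ⟨b, rfl, e, -⟩ := split_at h0
    have h1 : (zm b : O p K s) ∈ mx :=
      Ideal.pow_le_self (show ∑ i, b i ≠ 0 by omega) (zm_mem_pow b)
    have h3 : (z y : O p K s) ∈ Ny p K Y := Ny_le.1 le_rfl y hy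
    rw [zm_succ, mul_comm (zm b)]
    exact Ideal.mem_sup_left (Ideal.mul_mem_mul h3 h1)
  push Not at hy
  obtain ⟨x, -, hx⟩ := Finset.exists_ne_zero_of_sum_ne_zero (show ∑ i, a i ≠ 0 by omega)
  obtain ⟨b, rfl, e, le⟩ := split_at hx
  have h3 : mx * mx ⊔ Ny p K Y ≤ Ge p K (fun u => if Y u then 2 else 1) 2 :=
    sup_le (m1 fun i => by split_ifs <;> omega) (Ny_le.2 fun y hy => by
      simpa [hy] using z_mem_Ge (p := p) (K := K) (fun u => if Y u then 2 else 1) y)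
  have h4 := mem_Ge.1 (h3 (h x fun hx' => hx (hy x hx'))) b (cf_pd_ne.2 ha)
  have h5 : wt (fun u => if Y u then 2 else 1) b = ∑ i, b i := Finset.sum_congr rfl fun i _ => by
    by_cases hi : Y i
    · have := le i; have := hy i hi; simp [show b i = 0 by omega]
    · simp [hi]
  exact Ideal.mem_sup_right (Ideal.pow_le_pow_right (by omega) (zm_mem_pow _))

theorem Ny_eq (Y : s → Prop) : Ny p K Y = sp fun y : {y // Y y} => (z y.1 : O p K s) :=
  le_antisymm (Ny_le.2 fun y hy => mem_sp (fun y : {y // Y y} => (z y.1 : O p K s)) ⟨y, hy⟩)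
    (sp_le.2 fun y => Ny_le.1 le_rfl y.1 y.2)

variable {G : Gr (Gm p) K (O p K s)} {d : s → Gm p} {X : Type} [TopologicalSpace X]
  {hO : ∀ i, G.Hg (d i) (z i)} {T : To K X} {σ : Ch K 3 X} {g : Cn G X} {a b : (Tw G)ˣ}
  {Y : s → Prop} {κ : s → Co K 1 X} {f : Co (Tw G) 2 X} {Z : ℕ → Sb X} {P : Sb X} {n : ℕ}
  {Nr : Set (Co K 2 X)} {F : s → ℕ} {wk : ℕ → ℕ} {N0 : ℕ}
  (h : WF hO T σ g a b Y κ f Z P n Nr F wk N0)

include h

/-- **(W0)**, weak form -/
theorem WF.w0' : T.W σ g a b ∈ Ny p K Y * mx ⊔ mx ^ 3 := quad_Ny h.W_sq fun _ => h.pd_lin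

theorem WF.Lw_le : Lw Y (T.W σ g a b) ≤ mx * mx ⊔ Ny p K Y := iSup_le fun x => by
  by_cases hx : Y x
  · rw [YT, if_pos hx]; exact le_sup_of_le_right Ideal.mul_le_left
  · exact Ideal.mul_le_right.trans ((Ideal.span_singleton_le_iff_mem _).2 (h.pd_lin hx))

theorem WF.I_le (hn : 0 < wk n) :
    Lw Y (T.W σ g a b) ⊔ mx * Ge p K F (wk n) ≤ mx * mx ⊔ Ny p K Y :=
  sup_le h.Lw_le (le_sup_of_le_left (Ideal.mul_mono_right (Ge_le_mx (by omega))))

end gen

variable {p : ℕ} [Fact p.Prime] {s : Type} [Fintype s] {G : Gr (Gm p) (ZMod p) (O p (ZMod p) s)}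
  {d : s → Gm p}

/-- the wall of a homogeneous potential -/
def wall (hO : ∀ i, G.Hg (d i) (z i)) (kd : s → Option Bool) (F : s → ℕ) (W : O p (ZMod p) s)
    (h2 : W ∈ mx ^ 2) (hW : G.Hg (g0 p) W)
    (inj : ∀ i j, kd i = none → kd j = none → d i = d j → i = j) : Wall p (Gm p) (g0 p) s :=
  ⟨kd, F, d, W, h2, deg_of_cf hO hW, inj⟩

variable {X : Type} [TopologicalSpace X] {hO : ∀ i, G.Hg (d i) (z i)} {T : To (ZMod p) X}
  {σ : Ch (ZMod p) 3 X} {g : Cn G X} {a b : (Tw G)ˣ} {κ : s → Co (ZMod p) 1 X}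
  {f : Co (Tw G) 2 X} {Z : ℕ → Sb X} {P : Sb X} {n : ℕ} {Nr : Set (Co (ZMod p) 2 X)}
  {wk : ℕ → ℕ} {N0 N : ℕ} {Γ : Type} [AddCommGroup Γ] {δ : Γ} {w : Wall p Γ δ s}
  (h : WF hO T σ g a b (fun x => w.kd x = none) κ f Z P n Nr (fun x => N + w.F x) wk N0)
  (hW : w.W = T.W σ g a b)

include h hW in
theorem WF.ex_ka (x : {x // w.kd x ≠ none}) : ∃ v ∈ Ge p (ZMod p) (fun x => N + w.F x)
    ((N + w.F x.1 : ℕ) + 1), v - pd x.1 w.W ∈ mx * Lw (fun x => w.kd x = none) w.W := by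
  obtain ⟨u, hu, v, hv, e⟩ := Submodule.mem_sup.1 (h.w2 x.2)
  rw [← hW] at hu e
  exact ⟨v, hv, by rw [← e, sub_add_cancel_right]; exact neg_mem hu⟩

/-- **the wall facts** -/
def WF.wf : _root_.N255.Sl.Wf w N where
  I := Lw (fun x => w.kd x = none) w.W ⊔ mx * Ge p (ZMod p) (fun x => N + w.F x) (wk n)
  KU := mx * Ge p (ZMod p) (fun x => N + w.F x) (wk n)
  β := {x // w.kd x ≠ none}
  ka x := (h.ex_ka hW x).choose
  e x := x.1
  hI := sup_le (hW ▸ h.Lw_le.trans (sup_le Ideal.mul_le_left Ny_mx)) Ideal.mul_le_left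
  he x := x.2
  hk x := ⟨Ideal.mem_sup_left (by
    simpa using add_mem (Ideal.mul_le_right (h.ex_ka hW x).choose_spec.2) (pd_Lw w.W x.2)),
    (h.ex_ka hW x).choose_spec.1⟩
  w1 := nak mx_nil (sup_le (iSup_le fun x => by
      by_cases hx : w.kd x = none
      · refine le_sup_of_le_left (le_sup_of_le_right (le_trans (le_of_eq ?_) (le_EE _ _ _ x)))
        rw [YT, if_pos hx, _root_.N255.Sl.YU, if_pos hx, Ny_eq]
      · refine Ideal.mul_le_right.trans ((Ideal.span_singleton_le_iff_mem _).2 ?_)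
        simpa using sub_mem (Ideal.mem_sup_left (Ideal.mem_sup_left
          (mem_sp (fun x => (h.ex_ka hW x).choose) ⟨x, hx⟩))) (Ideal.mem_sup_right
            (Ideal.mul_mono_right le_sup_left (h.ex_ka hW ⟨x, hx⟩).choose_spec.2)))
    (le_sup_of_le_left (le_sup_of_le_right (H_le_EE _ _ _))))
  w2 x := Ideal.mem_sup_left (Ideal.mul_mono_right le_sup_left (h.ex_ka hW x).choose_spec.2)
  hes x y := hW ▸ h.hess x.2 y.2

theorem WF.wf_KU : (h.wf hW).KU = mx * Ge p (ZMod p) (fun x => N + w.F x) (wk n) := rfl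

theorem WF.wf_cur : CI P (h.wf hW).I (cur g) := fun τ hτ => (h.w1 τ hτ).mono (hW ▸ le_rfl)

theorem WF.wf_id : G.Id (h.wf hW).I := by
  have := WF.id_I (T := T) (σ := σ) (g := g) (a := a) (b := b) (Y := fun x => w.kd x = none)
    (F := fun x => N + w.F x) (wk := wk) (n := n) hO
  rwa [← hW] at this

theorem WF.wf_I (hn : 0 < wk n) : (h.wf hW).I ≤
    (sp fun y : {y // w.kd y = none} => (z y.1 : O p (ZMod p) s)) ⊔ mx ^ 2 := by
  have := h.I_le hn
  rwa [← hW, sup_comm (mx * mx), ← sq, Ny_eq] at this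

include h hW in
theorem WF.wf_W :
    w.W ∈ (sp fun y : {y // w.kd y = none} => (z y.1 : O p (ZMod p) s)) * mx ⊔ mx ^ 3 := by
  have := h.w0'
  rwa [← hW, Ny_eq] at this

theorem WF.wf_N (hn : 0 < wk n) {N1 : ℕ} (h1 : N1 ≤ 2 * N0) (hy : ∀ y, w.kd y = none → N1 ≤ N + w.F y) :
    (h.wf hW).I ≤ Ge p (ZMod p) (fun x => N + w.F x) N1 :=
  (h.wf_I hW hn).trans (sup_le (sp_le.2 fun y => (flt_Ge _).anti (by exact_mod_cast hy y.1 y.2)
    (z_mem_Ge (fun x => N + w.F x) y.1)) (by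
      rw [sq]; exact (flt_Ge _).mul_le h.mx_le h.mx_le (by omega)))

theorem WF.wf_K (hn : 0 < wk n) {L : ℤ} (hL : L ≤ N0 + wk n) :
    (h.wf hW).KU ≤ mx ^ 2 ⊓ Ge p (ZMod p) (fun x => N + w.F x) L :=
  le_inf (by rw [sq]; exact Ideal.mul_mono_right (Ge_le_mx (by omega)))
    ((flt_Ge _).mul_le h.mx_le le_rfl hL)

end Crest.Agent.N255.Wf

end
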